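import Vale.Agent.P235.H492.VarGeod
import Vale.Agent.P235.H627.Seq2

/-!
P235, planar `O(log log n)` (helper40), section (8), helper492: one coordinate of one domain,
without any definition of a domain.
-/

namespace Vale.Agent.P235.H492

open Finset SimpleGraph Vale.Agent.P235.H627

variable {V : Type} {G : SimpleGraph V} {ℓ : Sym2 V → ℝ}

/-- `t` is the distance of `x` to the set `A`. -/
def IsDst (G : SimpleGraph V) (ℓ : Sym2 V → ℝ) (A : Set V) (x : V) (t : ℝ) : Prop :=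
  (∃ a ∈ A, pathDist G ℓ x a = t) ∧ ∀ a ∈ A, t ≤ pathDist G ℓ x a

/-- visible set after step `j` of the macro move with slopes `s` (= `Dom.vis`) -/
def Vj (U : Set V) (s : V → ℝ) (j : ℕ) : Set V := {v | v ∈ U → 1 ≤ j ∧ 1 ≤ 2 ^ j * s v}

theorem one_le_iff {σ : ℝ} {j : ℕ} : 1 ≤ 2 ^ j * σ ↔ 1 / 2 ^ j ≤ σ := by
  rw [div_le_iff₀ (by positivity), mul_comm]

theorem Vj_mono {U : Set V} {s : V → ℝ} {i j : ℕ} (h : i ≤ j) : Vj U s i ⊆ Vj U s j := by
  intro v hv hvU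
  obtain ⟨h1, h2⟩ := hv hvU
  rw [one_le_iff] at h2
  refine ⟨h1.trans h, one_le_iff.mpr (le_trans (one_div_le_one_div_of_le (by positivity)
      (pow_le_pow_right₀ (by norm_num) h)) h2)⟩

theorem compl_sub_Vj {U : Set V} {s : V → ℝ} (j : ℕ) : Uᶜ ⊆ Vj U s j :=
  fun _ hv hvU => absurd hvU hv

theorem IsDst.anti {A B : Set V} (h : A ⊆ B) {x : V} {t t' : ℝ} (hA : IsDst G ℓ A x t)
    (hB : IsDst G ℓ B x t') : t' ≤ t := by
  obtain ⟨⟨a, ha, rfl⟩, _⟩ := hA
  exact hB.2 a (h ha)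

theorem IsDst.uniq {A : Set V} {x : V} {t t' : ℝ} (hA : IsDst G ℓ A x t)
    (hB : IsDst G ℓ A x t') : t' = t :=
  le_antisymm (IsDst.anti subset_rfl hA hB) (IsDst.anti subset_rfl hB hA)

theorem IsDst.exists [Finite V] {A : Set V} (hA : A.Nonempty) (x : V) : ∃ t, IsDst G ℓ A x t := by
  obtain ⟨a, ha, h⟩ := A.exists_min_image (fun a => pathDist G ℓ x a) A.toFinite hA
  exact ⟨_, ⟨a, ha, rfl⟩, h⟩

/-- the facts about one coordinate of one domain -/
structure Crd (G : SimpleGraph V) (ℓ : Sym2 V → ℝ) (U : Set V) (c s : V → ℝ) (J : ℕ) : Prop where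
  hJ : 1 ≤ J
  hs0 : ∀ v ∈ U, 0 ≤ s v
  hs1 : ∀ v ∈ U, s v ≤ 1
  hsJ : ∀ v ∈ U, 0 < s v → 1 ≤ 2 ^ J * s v
  hedge : ∀ u ∈ U, ∀ v ∈ U, G.Adj u v → |c u - c v| ≤ s u * ℓ s(u, v)

section one

variable [Finite V] (hc : G.Connected) (hℓ : ∀ e ∈ G.edgeSet, 0 < ℓ e) {U : Set V} {c s : V → ℝ}
  {J : ℕ} (hC : Crd G ℓ U c s J) {x : V} (hx : x ∈ U) {p : ℝ} (hp : IsDst G ℓ Uᶜ x p)
  {q : ℕ → ℝ} (hq : ∀ j, IsDst G ℓ (Vj U s j) x (q j))

include hq in
omit [Finite V] in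
theorem q_anti {i j : ℕ} (h : i ≤ j) : q j ≤ q i := IsDst.anti (Vj_mono h) (hq i) (hq j)

include hp hq in
omit [Finite V] in
theorem q_le (i : ℕ) : q i ≤ p := IsDst.anti (compl_sub_Vj i) hp (hq i)

include hq in
omit [Finite V] in
theorem hq' : ∀ k, 1 ≤ k → k ≤ J → ∀ v ∈ U, 1 / 2 ^ k ≤ s v → q k ≤ pathDist G ℓ x v :=
  fun k h1 _ v _ hs => (hq k).2 v (fun _ => ⟨h1, one_le_iff.mpr hs⟩)

include hC in
omit [Finite V] in
theorem hsJ' : ∀ v ∈ U, 0 < s v → 1 / 2 ^ J ≤ s v := fun v hv h => one_le_iff.mp (hC.hsJ v hv h)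

include hc hℓ hC hp hq in
/-- variation up to the nearest dart of the domain -/
theorem top_var {v b : V} (w : G.Walk x v) (h : G.Adj v b)
    (hw : ((w.concat h).edges.map ℓ).sum = pathDist G ℓ x b) (hb : pathDist G ℓ x b = p)
    (hU : ∀ u ∈ w.support, u ∈ U) {cb : ℝ} (hcb : |c v - cb| ≤ s v * ℓ s(v, b)) :
    |cb - c x| ≤ tailS J (fun i => p - q i) 0 := by
  have h1 := var_dart hc hℓ hC.hJ hC.hs0 hC.hs1 (hsJ' hC) hC.hedge (hq' hq) w h hw hU hcb
  rw [hb, BB_top hC.hJ (fun k _ _ => q_le hp hq k)] at h1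
  exact h1

include hc hℓ hC hp hq in
/-- variation up to the nearest point of `M_j` -/
theorem mid_var {j : ℕ} (hj : 1 ≤ j) (hjJ : j ≤ J) (hlt : q j < p) :
    ∃ z, z ∈ U ∧ 1 ≤ 2 ^ j * s z ∧ pathDist G ℓ x z = q j ∧
      |c z - c x| ≤ tailS J (fun i => p - q i) j - (p - q j) / 2 ^ j ∧
      (x ∉ Vj U s j → ∃ (v : V) (w : G.Walk x v) (h : G.Adj v z),
        ((w.concat h).edges.map ℓ).sum = pathDist G ℓ x z ∧ ∀ u ∈ w.support, u ∉ Vj U s j) := by
  obtain ⟨⟨z, hz, hzq⟩, hmin⟩ := hq j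
  have hzU : z ∈ U ∧ 1 ≤ 2 ^ j * s z := by
    have h1 : z ∈ U := by
      by_contra hcon
      exact absurd (hp.2 z hcon) (by linarith)
    exact ⟨h1, (hz h1).2⟩
  have hB := BB_mid (J := J) (q := q) (t := p) hj hjJ (fun k k' _ h _ => q_anti hq h)
  have htail : tailS J (fun i => p - q i) j - (p - q j) / 2 ^ j = BB J q (q j) := by
    rw [hB]; rfl
  refine ⟨z, hzU.1, hzU.2, hzq, ?_, ?_⟩
  · rw [htail]
    by_cases hxV : x ∈ Vj U s j
    · -- then `z = x`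
      have h0 : q j ≤ pathDist G ℓ x x := hmin x hxV
      have hd := pathDist_isMet hc hℓ
      have h1 : pathDist G ℓ x x = 0 := hd.self x
      have h2 : x = z := by
        by_contra hne
        have := hd.pos x z hne
        linarith
      rw [← h2]; simpa using BB_nonneg
    · obtain ⟨v, w, h, hw, hsup⟩ := geod_nearest hc hℓ hxV hz (fun a ha => by
        rw [hzq]; exact hmin a ha)
      have hU : ∀ u ∈ w.support, u ∈ U := fun u hu => by
        by_contra hcon; exact hsup u hu (compl_sub_Vj j hcon)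
      have hU' : ∀ u ∈ (w.concat h).support, u ∈ U := by
        intro u hu
        rw [Walk.support_concat] at hu
        simp only [List.concat_eq_append, List.mem_append, List.mem_singleton] at hu
        rcases hu with hu | hu
        · exact hU u hu
        · rw [hu]; exact hzU.1
      have h1 := var_geod hc hℓ hC.hJ hC.hs0 hC.hs1 (hsJ' hC) hC.hedge (hq' hq) (w.concat h) hw hU'
      rwa [hzq] at h1
  · intro hxV
    exact geod_nearest hc hℓ hxV hz (fun a ha => by rw [hzq]; exact hmin a ha)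

end one

/-- **growth**: the coordinate `τ = 0` of a chain: all levels are good. -/
theorem growth (C : ℝ) : ∃ ε₂ : ℝ, 0 < ε₂ ∧ ε₂ ≤ 1 / 8 ∧
    ∀ {V : Type} [Finite V] {G : SimpleGraph V} {ℓ : Sym2 V → ℝ}, G.Connected →
    (∀ e ∈ G.edgeSet, 0 < ℓ e) → ∀ {U : Set V} {c s : V → ℝ} {J : ℕ}, Crd G ℓ U c s J →
    ∀ {ρ : V → ℝ}, (∀ v, IsDst G ℓ Uᶜ v (ρ v)) →
    (∀ v ∈ U, s v * ρ v ≤ c v) →
    ∀ {x : V}, ∀ {q : ℕ → ℝ}, (∀ j, IsDst G ℓ (Vj U s j) x (q j)) →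
    ∀ {v b : V} (w : G.Walk x v) (h : G.Adj v b),
      ((w.concat h).edges.map ℓ).sum = pathDist G ℓ x b → pathDist G ℓ x b = ρ x →
      (∀ u ∈ w.support, u ∈ U) → ∀ {cb : ℝ}, |c v - cb| ≤ s v * ℓ s(v, b) →
    ∀ {L : ℝ}, 0 ≤ L → c x ≤ ε₂ * L → 3 / 8 * L ≤ cb →
    C * L ≤ ∑ j ∈ Icc 1 J, H538.law J j * (ρ x - q j) := by
  obtain ⟨J0, hJ0, ε₀, hε₀, H⟩ := seq_core538 (c := 1 / 4) (C := C) (by norm_num)
  refine ⟨min ε₀ (1 / 8), lt_min hε₀ (by norm_num), min_le_right _ _, ?_⟩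
  intro V _ G ℓ hc hℓ U c s J hC ρ hρ hsteep x q hq v b w h hw hb hU cb hcb L hL hcx hcbL
  have hp := hρ x
  have hl : ∀ i, 0 ≤ (fun i => ρ x - q i) i := fun i => by
    have := q_le hp hq i
    simp only; linarith
  have htop := top_var hc hℓ hC hp hq w h hw hb hU hcb
  have hmin1 : min ε₀ (1 / 8) * L ≤ 1 / 8 * L := mul_le_mul_of_nonneg_right (min_le_right _ _) hL
  have h2 : cb - c x ≤ tailS J (fun i => ρ x - q i) 0 := le_trans (le_abs_self _) htop
  rcases hL.eq_or_lt with hL0 | hL0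
  · rw [← hL0, mul_zero]
    exact Finset.sum_nonneg fun j _ => mul_nonneg (H538.law_nonneg J j) (hl j)
  have hx : x ∈ U := hU x w.start_mem_support
  rcases H (min ε₀ (1 / 8)) (le_min hε₀.le (by norm_num)) (min_le_left _ _) J hC.hJ
    (fun i => ρ x - q i) hl L hL ∅ (by linarith) (by
      intro j hj _
      rw [mem_Icc] at hj
      have hjJ : j ≤ J := le_trans hj.2 (min_le_right _ _)
      have ht := tailS_nonneg (J := J) hl j
      have h2j : (0 : ℝ) < 2 ^ j := by positivity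
      rcases (q_le hp hq j).eq_or_lt with he | hlt
      · have h0 : (6 / 5 : ℝ) * ((ρ x - q j) / 2 ^ j) = 0 := by rw [he]; simp
        have h1 : 0 ≤ min ε₀ (1 / 8) * L := mul_nonneg (le_min hε₀.le (by norm_num)) hL
        linarith
      · obtain ⟨z, hzU, hsz, hdz, hvar, _⟩ := mid_var hc hℓ hC hp hq hj.1 hjJ hlt
        have h3' := hsteep z hzU
        have hρ0 : 0 ≤ ρ z := by
          obtain ⟨⟨a, ha, hae⟩, _⟩ := hρ z
          rw [← hae]; exact pathDist_nonneg hℓ z a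
        have h3 : ρ z / 2 ^ j ≤ c z := by
          refine le_trans ?_ h3'
          rw [one_le_iff] at hsz
          have := mul_le_mul_of_nonneg_right hsz hρ0
          calc ρ z / 2 ^ j = 1 / 2 ^ j * ρ z := by ring
            _ ≤ _ := this
        have h4 : ρ x - q j ≤ ρ z := by
          obtain ⟨⟨a, ha, hae⟩, _⟩ := hρ z
          have h5 := hp.2 a ha
          have h6 := (pathDist_isMet hc hℓ).tri x z a
          linarith
        have h5 : (ρ x - q j) / 2 ^ j ≤ ρ z / 2 ^ j := div_le_div_of_nonneg_right h4 h2j.le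
        have h6 : c z - c x ≤ _ := le_trans (le_abs_self _) hvar
        have h7 : 0 ≤ (ρ x - q j) / 2 ^ j := div_nonneg (hl j) h2j.le
        linarith) with hbad | hgood
  · exfalso
    have h0 : (Icc 1 (min J0 J)).filter (fun j => j ∈ (∅ : Finset ℕ)) = ∅ := by simp
    rw [h0, Finset.sum_empty] at hbad
    linarith
  · exact hgood

end Vale.Agent.P235.H492
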