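import Vale.Agent.P235.LL.Basic
import Vale.Agent.P235.LL.Rows
import Vale.Agent.P235.H492.Lin2a

/-!
P235, planar `O(log log n)` (helper40), section (8): `RowLin` (helper492).
-/

namespace Vale.Agent.P235.LL.H492

open Finset SimpleGraph Vale.Agent.P235 Vale.Agent.P235.LL Vale.Agent.P235.H492
  Vale.Agent.P235.H627

section basic

variable {V : Type} {G : SimpleGraph V} {ℓ : Sym2 V → ℝ}

theorem isDst_dto [Finite V] (hℓ : ∀ e ∈ G.edgeSet, 0 < ℓ e) {S : Set V} (hS : S.Nonempty)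
    (x : V) : IsDst G ℓ S x (dto G ℓ S x) := by
  obtain ⟨b, hb, h⟩ := exists_dto (G := G) (ℓ := ℓ) hS x
  exact ⟨⟨b, hb, h.symm⟩, fun a ha => dto_le hℓ ha x⟩

theorem crd [Finite V] (hℓ : ∀ e ∈ G.edgeSet, 0 < ℓ e) {D : Dom V} (hD : IsDom G ℓ D)
    (k : Fin 3 × Bool) : Crd G ℓ D.U (D.c k) (D.s k) (D.Jm k) where
  hJ := Jm_pos D k
  hs0 v _ := hD.s0 k v
  hs1 v _ := hD.s1 k v
  hsJ := (Jm_mem D k).2
  hedge u hu v hv h := (hD.edge k u v hu hv h).trans
    (mul_le_mul_of_nonneg_right (min_le_left _ _) (hℓ _ (G.mem_edgeSet.mpr h)).le)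

theorem hqv [Finite V] (hℓ : ∀ e ∈ G.edgeSet, 0 < ℓ e) {D : Dom V} (hD : IsDom G ℓ D)
    (k : Fin 3 × Bool) (x : V) (j : ℕ) :
    IsDst G ℓ (Vj D.U (D.s k) j) x (dto G ℓ (D.vis k j) x) :=
  isDst_dto hℓ (hD.vis_nonempty k j) x

theorem law_mass (D : Dom V) (k : Fin 3 × Bool) (g : ℕ → ℝ) :
    ∑ a ∈ Icc 1 (D.Jm k), H538.law (D.Jm k) a * g a
      = ∑ j ∈ range (D.Jm k), D.mass k j * g (j + 1) := by
  have h : Icc 1 (D.Jm k) = (range (D.Jm k)).image (fun j => j + 1) := by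
    ext a
    simp only [mem_Icc, mem_image, mem_range]
    constructor
    · rintro ⟨h1, h2⟩
      exact ⟨a - 1, by omega, by omega⟩
    · rintro ⟨j, h1, h2⟩
      omega
  rw [h, Finset.sum_image (fun a _ b _ hab => by simpa using hab)]
  refine Finset.sum_congr rfl fun j hj => ?_
  rw [mem_range] at hj
  congr 1
  unfold H538.law Dom.mass H538.qq
  by_cases hjJ : j + 1 = D.Jm k
  · rw [if_neg (by omega), if_pos hjJ, Nat.add_sub_cancel]
  · rw [if_pos (by omega), if_neg hjJ, Nat.add_sub_cancel]; norm_num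

theorem E_single {D : Dom V} {f : Fin 3 × Bool → ℕ → ℝ} (h : ∀ k, ∀ j < D.Jm k, 0 ≤ f k j)
    (k : Fin 3 × Bool) : 1 / 6 * ∑ j ∈ range (D.Jm k), D.mass k j * f k j ≤ Sys.E D f := by
  unfold Sys.E
  refine Finset.single_le_sum (f := fun k => 1 / 6 * ∑ j ∈ range (D.Jm k), D.mass k j * f k j)
    (fun k' _ => ?_) (Finset.mem_univ k)
  refine mul_nonneg (by norm_num) (Finset.sum_nonneg fun j hj => ?_)
  rw [mem_range] at hj
  exact mul_nonneg (mass_nonneg D k' j) (h k' j hj)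

theorem R1_term_nonneg [Finite V] (hℓ : ∀ e ∈ G.edgeSet, 0 < ℓ e) {D : Dom V} (hD : IsDom G ℓ D)
    (k : Fin 3 × Bool) (j : ℕ) (x : V) :
    0 ≤ dto G ℓ D.Uᶜ x - dto G ℓ (D.vis k j) x :=
  sub_nonneg.mpr (dto_mono hℓ (Dom.compl_sub_vis k j) hD.compl_nonempty x)

theorem R1_nonneg [Finite V] (hℓ : ∀ e ∈ G.edgeSet, 0 < ℓ e) {D : Dom V} (hD : IsDom G ℓ D)
    (x : V) : 0 ≤ Sys.R1 G ℓ D x :=
  E_nonneg fun k j _ => R1_term_nonneg hℓ hD k (j + 1) x

theorem Nd_nonneg (hℓ : ∀ e ∈ G.edgeSet, 0 < ℓ e) (D D' : Dom V) (k : Fin 3 × Bool) (j : ℕ)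
    (x : V) : 0 ≤ Sys.Nd G ℓ D D' k j x :=
  Real.iInf_nonneg fun e => add_nonneg (add_nonneg (dto_nonneg hℓ _ _)
    (Finset.sum_nonneg fun _ _ => abs_nonneg _)) (by positivity)

theorem N_nonneg {K : ℝ} (hℓ : ∀ e ∈ G.edgeSet, 0 < ℓ e) (S : Sys G ℓ K) (D : Dom V)
    (k : Fin 3 × Bool) (j : ℕ) (x : V) : 0 ≤ S.N D k j x := by
  unfold Sys.N
  split_ifs
  · exact dto_nonneg hℓ _ _
  · exact Nd_nonneg hℓ _ _ _ _ _

/-- a dart which (almost) attains `Nd` -/
theorem Nd_dart {D D' : Dom V} {k : Fin 3 × Bool} {j : ℕ} {x : V} {t : ℝ}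
    (hne : ∃ v b, D'.Dart G v b) (hℓ : ∀ e ∈ G.edgeSet, 0 < ℓ e)
    (h : Sys.Nd G ℓ D D' k j x < t) :
    ∃ v b, D'.Dart G v b ∧ dto G ℓ D.Uᶜ b ≤ t ∧ (∑ i, |D'.X ℓ i v b - D'.c i x|) ≤ t ∧
      (∀ i, |D'.X ℓ i v b - D'.c i x| ≤ t) ∧ 2 ^ (j + 1) * |D.cv k b - D.c k x| ≤ t := by
  obtain ⟨v0, b0, h0⟩ := hne
  have : Nonempty {e : V × V // D'.Dart G e.1 e.2} := ⟨⟨(v0, b0), h0⟩⟩
  obtain ⟨⟨⟨v, b⟩, he⟩, hlt⟩ := exists_lt_of_ciInf_lt h
  simp only at hlt he
  have h1 : 0 ≤ dto G ℓ D.Uᶜ b := dto_nonneg hℓ _ _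
  have h2 : 0 ≤ ∑ i, |D'.X ℓ i v b - D'.c i x| := Finset.sum_nonneg fun _ _ => abs_nonneg _
  have h3 : 0 ≤ 2 ^ (j + 1) * |D.cv k b - D.c k x| := by positivity
  refine ⟨v, b, he, by linarith, by linarith, fun i => ?_, by linarith⟩
  have h4 : |D'.X ℓ i v b - D'.c i x| ≤ ∑ i, |D'.X ℓ i v b - D'.c i x| :=
    Finset.single_le_sum (f := fun i => |D'.X ℓ i v b - D'.c i x|) (fun _ _ => abs_nonneg _)
      (Finset.mem_univ i)
  linarith

/-- support of a walk avoiding `W` is in the component -/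
theorem mem_comp_of_walk {W : Set V} {x v : V} (w : G.Walk x v) (h : ∀ u ∈ w.support, u ∉ W) :
    ∀ u ∈ w.support, u ∈ compSet G W x := by
  classical
  intro u hu
  exact ⟨w.takeUntil u hu, fun a ha => h a (w.support_takeUntil_subset_support hu ha)⟩

end basic

/-- **the bad level**: either the next gain is large or the progress of the move after it. -/
theorem bad (C : ℝ) : ∃ ε' : ℝ, 0 < ε' ∧ ε' ≤ 1 / 80 ∧
    ∀ {V : Type} [Finite V] {G : SimpleGraph V} {ℓ : Sym2 V → ℝ} {K : ℝ}, G.Connected →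
    (∀ e ∈ G.edgeSet, 0 < ℓ e) → ∀ (S : Sys G ℓ K) (D : Dom V), S.Good D →
    ∀ (k : Fin 3 × Bool) (j : ℕ) {x : V}, ∀ {L : ℝ},
    L = dto G ℓ D.Uᶜ x - dto G ℓ (D.vis k (j + 1)) x → 0 < L →
    ∀ {z : V}, z ∈ D.U → 1 ≤ 2 ^ (j + 1) * D.s k z →
    pathDist G ℓ x z = dto G ℓ (D.vis k (j + 1)) x →
    2 ^ (j + 1) * |D.c k z - D.c k x| ≤ 9 / 40 * L →
    (x ∉ D.vis k (j + 1) → ∃ (v : V) (w : G.Walk x v) (h : G.Adj v z),
      ((w.concat h).edges.map ℓ).sum = pathDist G ℓ x z ∧ ∀ u ∈ w.support, u ∉ D.vis k (j + 1)) →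
    ε' * L ≤ S.N D k j x ∨ (x ∉ D.vis k (j + 1) ∧ C * L ≤ Sys.R1 G ℓ (S.ch D k j x) x) := by
  obtain ⟨ε₂, hε₂, _, hgrowth⟩ := growth (6 * C)
  refine ⟨min ε₂ (1 / 80), lt_min hε₂ (by norm_num), min_le_right _ _, ?_⟩
  intro V _ G ℓ K hc hℓ S D hD k j x L hL hLpos z hzU hsz hdz hcz hgeo
  have hdom := S.dom D hD
  have hmet := pathDist_isMet hc hℓ
  set ε' : ℝ := min ε₂ (1 / 80) with hε'
  have hε'0 : 0 < ε' := lt_min hε₂ (by norm_num)
  have hε'80 : ε' ≤ 1 / 80 := min_le_right _ _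
  have hε'2 : ε' ≤ ε₂ := min_le_left _ _
  have hεL : ε' * L ≤ 1 / 80 * L := mul_le_mul_of_nonneg_right hε'80 hLpos.le
  have hεL2 : ε' * L ≤ ε₂ * L := mul_le_mul_of_nonneg_right hε'2 hLpos.le
  by_cases hxv : x ∈ D.vis k (j + 1)
  · left
    unfold Sys.N
    rw [if_pos hxv]
    have := dto_nonneg hℓ (D.vis k (j + 1)) x
    linarith
  · by_contra hcon
    push Not at hcon
    obtain ⟨hN, hR⟩ := hcon
    have hR := hR hxv
    unfold Sys.N at hN
    rw [if_neg hxv] at hN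
    set D1 := S.ch D k j x with hD1
    have hG1 : S.Good D1 := Sys.ch_good hD hxv
    have hdom1 := S.dom D1 hG1
    have lk : Link G D D1 k (j + 1) := Sys.ch_link hD hxv
    obtain ⟨v3, w, h3, hw, hsup⟩ := hgeo hxv
    have hwU : ∀ u ∈ w.support, u ∈ D1.U := by
      intro u hu
      rw [hD1, Sys.ch_U hD hxv]
      exact mem_comp_of_walk w hsup u hu
    have hzvis : z ∈ D.vis k (j + 1) := (Dom.mem_vis_iff hzU).mpr hsz
    have hz1 : z ∉ D1.U := fun hz => Sys.not_vis_of_ch hD hxv hz hzvis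
    have hdart3 : D1.Dart G v3 z := ⟨hwU v3 w.end_mem_support, hz1, h3⟩
    obtain ⟨v2, b2, hdart2, hρb, -, hXi, hcvb⟩ := Nd_dart ⟨v3, z, hdart3⟩ hℓ hN
    obtain ⟨γ, hγ⟩ := hdom1.cover v2 b2 hdart2
    set T : ℝ := 2 ^ (j + 1) with hT
    have hT0 : 0 < T := by positivity
    have hρz : L ≤ dto G ℓ D.Uᶜ z := by
      have := dto_tri hc hℓ D.Uᶜ x z
      linarith
    have hcvz : D.cv k z = D.c k z := by unfold Dom.cv; rw [if_pos hzU]
    rcases lk.pc γ with hNt | ⟨hf, hQ⟩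
    · have hwg : ∀ b ∈ D1.P γ, D1.w γ b = T * D.cv k b := hNt
      have hTb : T * |D.cv k z - D.cv k b2| ≤ 9 / 40 * L + ε' * L := by
        have h1 : |D.cv k z - D.cv k b2| ≤ |D.c k z - D.c k x| + |D.cv k b2 - D.c k x| := by
          rw [hcvz, abs_sub_comm (D.cv k b2)]
          exact abs_sub_le _ _ _
        have h2 := mul_le_mul_of_nonneg_left h1 hT0.le
        rw [mul_add] at h2
        linarith
      by_cases hz : z ∈ D1.P γ
      · -- same chain
        have h1 := hdom1.pd γ z hz b2 hγ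
        rw [hwg z hz, hwg b2 hγ, ← mul_sub, abs_mul, abs_of_pos hT0] at h1
        have h2 := dto_tri hc hℓ D.Uᶜ z b2
        linarith
      · -- other chain
        obtain ⟨v', a, hdarta, haP, hfoot⟩ := hdom1.foot γ v3 z hdart3
        set h : ℝ := D1.X ℓ (γ, false) v3 z with hh
        have f1 := hfoot (fun y => dto G ℓ D.Uᶜ y) (fun x' _ y hxy => dto_adj hc hℓ _ hxy)
        have f2 := hfoot (fun y => T * D.cv k y) (by
          intro x' hx' y hxy
          rw [← mul_sub, abs_mul, abs_of_pos hT0]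
          have hx'v : x' ∉ D.vis k (j + 1) := Sys.not_vis_of_ch hD hxv hx'
          obtain ⟨hx'U, hx's⟩ := Dom.not_vis_iff.mp hx'v
          have hpos := hℓ _ (G.mem_edgeSet.mpr hxy)
          have key : |D.cv k x' - D.cv k y| ≤ D.s k x' * ℓ s(x', y) := by
            have e1 : D.cv k x' = D.c k x' := by unfold Dom.cv; rw [if_pos hx'U]
            rw [e1]
            by_cases hyU : y ∈ D.U
            · have e2 : D.cv k y = D.c k y := by unfold Dom.cv; rw [if_pos hyU]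
              rw [e2]
              exact (hdom.edge k x' y hx'U hyU hxy).trans
                (mul_le_mul_of_nonneg_right (min_le_left _ _) hpos.le)
            · have hdy : D1.Dart G x' y := ⟨hx', fun hy1 => hyU (Sys.ch_sub hD hxv hy1), hxy⟩
              have hyP : y ∈ D.P k.1 := by
                rcases lk.nb x' y hdy with h' | h'
                · exact absurd h' hyU
                · exact h'
              have e2 : D.cv k y = D.X ℓ k x' y := by
                unfold Dom.cv Dom.X; rw [if_neg hyU, if_pos hyP]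
              rw [e2]
              exact hdom.dart k x' y ⟨hx'U, hyU, hxy⟩
          calc T * |D.cv k x' - D.cv k y| ≤ T * (D.s k x' * ℓ s(x', y)) :=
                mul_le_mul_of_nonneg_left key hT0.le
            _ = (T * D.s k x') * ℓ s(x', y) := by ring
            _ ≤ 1 * ℓ s(x', y) := mul_le_mul_of_nonneg_right hx's.le hpos.le
            _ = ℓ s(x', y) := one_mul _)
        rw [← mul_sub, abs_mul, abs_of_pos hT0] at f2
        have f3 := hdom1.pd γ a haP b2 hγ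
        rw [hwg a haP, hwg b2 hγ, ← mul_sub, abs_mul, abs_of_pos hT0] at f3
        have f4 := dto_tri hc hℓ D.Uᶜ a b2
        have f5 : |D.cv k a - D.cv k b2| ≤ |D.cv k z - D.cv k a| + |D.cv k z - D.cv k b2| := by
          rw [abs_sub_comm (D.cv k z) (D.cv k a)]
          exact abs_sub_le _ _ _
        have f6 := mul_le_mul_of_nonneg_left f5 hT0.le
        rw [mul_add] at f6
        have f7 := (abs_le.mp f1).2
        have hh38 : 3 / 8 * L ≤ h := by linarith
        have hX0 : D1.X ℓ (γ, false) v2 b2 = 0 := by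
          unfold Dom.X Dom.tau
          rw [if_pos hγ, if_neg (by simp)]
        have hcx : D1.c (γ, false) x ≤ ε₂ * L := by
          have h1 := hXi (γ, false)
          rw [hX0, zero_sub, abs_neg] at h1
          exact (le_abs_self _).trans (h1.trans hεL2)
        have hcrd := crd hℓ hdom1 (γ, false)
        have hd1 : pathDist G ℓ x z = dto G ℓ D1.Uᶜ x := by
          rw [hdz, hD1, Sys.dto_ch hc hℓ hD hxv]
        have hgr := hgrowth hc hℓ hcrd (ρ := fun v => dto G ℓ D1.Uᶜ v)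
          (fun v => isDst_dto hℓ hdom1.compl_nonempty v)
          (fun v hv => hdom1.pos γ v hv) (x := x)
          (q := fun i => dto G ℓ (D1.vis (γ, false) i) x)
          (fun i => hqv hℓ hdom1 (γ, false) x i) w h3 hw hd1 hwU
          (hdom1.dart (γ, false) v3 z hdart3) hLpos.le hcx hh38
        rw [law_mass D1 (γ, false) (fun i => dto G ℓ D1.Uᶜ x - dto G ℓ (D1.vis (γ, false) i) x)]
          at hgr
        have hE := E_single (D := D1)
          (f := fun k i => dto G ℓ D1.Uᶜ x - dto G ℓ (D1.vis k (i + 1)) x)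
          (fun k i _ => R1_term_nonneg hℓ hdom1 k (i + 1) x) (γ, false)
        have hR1 : Sys.R1 G ℓ D1 x = Sys.E D1
          (fun k i => dto G ℓ D1.Uᶜ x - dto G ℓ (D1.vis k (i + 1)) x) := rfl
        rw [hR1] at hR
        linarith
    · -- old piece, `τ = 0`
      obtain ⟨i, t⟩ := k
      simp only at hf hQ
      subst hf
      have hb2P : b2 ∈ D.P i := hQ b2 hγ
      have hb2U : b2 ∉ D.U := hdom.pc i b2 hb2P
      have hcv0 : D.cv (i, false) b2 = 0 := by
        unfold Dom.cv Dom.tau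
        rw [if_neg hb2U, if_neg (by simp)]
      rw [hcv0, zero_sub, abs_neg] at hcvb
      have hpos := hdom.pos i z hzU
      have h1 : L ≤ T * D.c (i, false) z := by
        have h2 := mul_le_mul_of_nonneg_left hpos hT0.le
        have h3 : 1 * dto G ℓ D.Uᶜ z ≤ (T * D.s (i, false) z) * dto G ℓ D.Uᶜ z :=
          mul_le_mul_of_nonneg_right hsz (dto_nonneg hℓ _ _)
        calc L ≤ 1 * dto G ℓ D.Uᶜ z := by rw [one_mul]; exact hρz
          _ ≤ _ := h3
          _ = T * (D.s (i, false) z * dto G ℓ D.Uᶜ z) := by ring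
          _ ≤ _ := h2
      have h2 : T * D.c (i, false) x ≤ ε' * L :=
        (mul_le_mul_of_nonneg_left (le_abs_self _) hT0.le).trans hcvb
      have h3 : T * (D.c (i, false) z - D.c (i, false) x) ≤ 9 / 40 * L :=
        (mul_le_mul_of_nonneg_left (le_abs_self _) hT0.le).trans hcz
      rw [mul_sub] at h3
      linarith

/-- **RowLin = (8)** -/
theorem rowLin : RowLin := by
  obtain ⟨J0, hJ0, c₈, hc₈, ε₀, hε₀, Hnum⟩ :=
    lin_num538 (c := 1 / 16) (w := 1 / 6) (by norm_num) (by norm_num)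
  obtain ⟨ε', hε', hε'80, Hbad⟩ := bad (2048 / (1 / 16 * (1 / 6)))
  set ε : ℝ := min ε₀ (min (1 / 100) (c₈ / (40 * 2 ^ J0))) with hε
  have hε0 : 0 < ε := lt_min hε₀ (lt_min (by norm_num) (by positivity))
  have hε1 : ε ≤ ε₀ := min_le_left _ _
  have hε2 : ε ≤ 1 / 100 := (min_le_right _ _).trans (min_le_left _ _)
  have hε3 : ε ≤ c₈ / (40 * 2 ^ J0) := (min_le_right _ _).trans (min_le_right _ _)
  refine ⟨1 / ε, 128 / (1 / 16 * (1 / 6) * ε'), by positivity, by positivity, ?_⟩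
  intro V _ G ℓ K hc hℓ _ S D hD k j x hx
  have hdom := S.dom D hD
  set D1 := S.ch D k j x with hD1
  have hG1 : S.Good D1 := Sys.ch_good hD hx
  have hdom1 := S.dom D1 hG1
  have hx1 : x ∈ D1.U := Sys.ch_mem hD hx
  set r : ℝ := dto G ℓ D.Uᶜ x - dto G ℓ D1.Uᶜ x with hr
  have hN0 := N_nonneg hℓ S D k j x
  have hN1 : ∀ i a, 0 ≤ S.N D1 i a x := fun i a => N_nonneg hℓ S D1 i a x
  have hEN : 0 ≤ S.EN D1 x := E_nonneg fun i a _ => hN1 i a
  have hR1 : 0 ≤ Sys.R1 G ℓ D1 x := R1_nonneg hℓ hdom1 x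
  classical
  have hR2t : ∀ i a, 0 ≤ (if x ∈ D1.vis i (a + 1) then 0 else Sys.R1 G ℓ (S.ch D1 i a x) x) := by
    intro i a
    split_ifs with h
    · exact le_rfl
    · exact R1_nonneg hℓ (S.dom _ (Sys.ch_good hG1 h)) x
  have hR2e : S.R2 D1 x = Sys.E D1 fun i a =>
      if x ∈ D1.vis i (a + 1) then 0 else Sys.R1 G ℓ (S.ch D1 i a x) x := by
    unfold Sys.R2
    congr 1
  have hR2 : 0 ≤ S.R2 D1 x := by rw [hR2e]; exact E_nonneg fun i a _ => hR2t i a
  have hK2 : 0 ≤ 128 / (1 / 16 * (1 / 6) * ε') := by positivity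
  have hK2E := mul_nonneg hK2 hEN
  by_cases hbig : ε * r ≤ S.N D k j x
  · have h1 : r ≤ 1 / ε * S.N D k j x := by
      rw [one_div, ← div_eq_inv_mul, le_div_iff₀ hε0]
      linarith
    linarith
  push Not at hbig
  have hK1N : 0 ≤ 1 / ε * S.N D k j x := by positivity
  have hr0 : 0 < r := by
    by_contra hcon
    push Not at hcon
    have := mul_nonneg_of_nonpos_of_nonpos (by linarith : -ε ≤ 0) hcon
    linarith
  -- the nearest dart of `D1`
  obtain ⟨z, hz1, hzd⟩ := exists_dto (G := G) (ℓ := ℓ) hdom1.compl_nonempty x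
  obtain ⟨v1, w, h3, hw, hsup⟩ := geod_nearest hc hℓ (A := D1.Uᶜ) (x := x) (y := z)
    (fun h => h hx1) hz1 (fun a ha => by rw [← hzd]; exact dto_le hℓ ha x)
  have hwU : ∀ u ∈ w.support, u ∈ D1.U := fun u hu => not_not.mp (hsup u hu)
  have hdart1 : D1.Dart G v1 z := ⟨hwU v1 w.end_mem_support, hz1, h3⟩
  -- the near dart
  have hNd : Sys.Nd G ℓ D D1 k j x < ε * r := by
    have h1 := hbig
    unfold Sys.N at h1
    rwa [if_neg hx] at h1
  obtain ⟨v0, b, hdart0, hρb, -, hXi, -⟩ := Nd_dart ⟨v1, z, hdart1⟩ hℓ hNd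
  have hctrl := hdom1.ctrl v1 z v0 b hdart1 hdart0
  have hρz : dto G ℓ D.Uᶜ x ≤ dto G ℓ D1.Uᶜ x + dto G ℓ D.Uᶜ z := by
    have := dto_tri hc hℓ D.Uᶜ x z
    rw [← hzd] at this
    exact this
  have hzb := dto_tri hc hℓ D.Uᶜ z b
  have hεr : ε * r ≤ 1 / 100 * r := mul_le_mul_of_nonneg_right hε2 hr0.le
  have hsum : 99 / 200 * r ≤ ∑ i, |D1.X ℓ i v1 z - D1.X ℓ i v0 b| := by linarith
  obtain ⟨i, hi⟩ : ∃ i, 99 / 1200 * r ≤ |D1.X ℓ i v1 z - D1.X ℓ i v0 b| := by
    by_contra hcon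
    push Not at hcon
    have h1 : ∑ i, |D1.X ℓ i v1 z - D1.X ℓ i v0 b| ≤
        ∑ _i : Fin 3 × Bool, 99 / 1200 * r := Finset.sum_le_sum fun i _ => (hcon i).le
    have h2 : ∑ i, |D1.X ℓ i v1 z - D1.X ℓ i v0 b| <
        ∑ _i : Fin 3 × Bool, 99 / 1200 * r :=
      Finset.sum_lt_sum_of_nonempty Finset.univ_nonempty fun i _ => hcon i
    rw [Finset.sum_const, Finset.card_univ] at h2
    have h4 : Fintype.card (Fin 3 × Bool) = 6 := by simp
    rw [h4, nsmul_eq_mul] at h2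
    push_cast at h2
    linarith
  set m : ℝ := D1.X ℓ i v0 b with hm
  have hcm : |m - D1.c i x| ≤ ε * r := hXi i
  have hXz : 1 / 16 * r ≤ |D1.X ℓ i v1 z - D1.c i x| := by
    have h1 : |D1.X ℓ i v1 z - m| ≤ |D1.X ℓ i v1 z - D1.c i x| + |m - D1.c i x| := by
      rw [abs_sub_comm m]
      exact abs_sub_le _ _ _
    linarith
  have hcrd := crd hℓ hdom1 i
  have hp := isDst_dto (G := G) (ℓ := ℓ) hℓ hdom1.compl_nonempty x
  have hq : ∀ a, IsDst G ℓ (Vj D1.U (D1.s i) a) x (dto G ℓ (D1.vis i a) x) :=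
    fun a => hqv hℓ hdom1 i x a
  have htop := top_var hc hℓ hcrd hp hq w h3 hw hzd.symm hwU (hdom1.dart i v1 z hdart1)
  -- the sequences
  set l : ℕ → ℝ := fun a => dto G ℓ D1.Uᶜ x - dto G ℓ (D1.vis i a) x with hl
  set Ns : ℕ → ℝ := fun a => if a = 0 then 0 else S.N D1 i (a - 1) x with hNs
  set Rs : ℕ → ℝ := fun a => if a = 0 then 0 else
    (if x ∈ D1.vis i (a - 1 + 1) then 0 else Sys.R1 G ℓ (S.ch D1 i (a - 1) x) x) with hRs
  have hl0 : ∀ a, 0 ≤ l a := fun a => R1_term_nonneg hℓ hdom1 i a x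
  have hNs0 : ∀ a, 0 ≤ Ns a := by
    intro a
    simp only [hNs]
    split_ifs
    · exact le_rfl
    · exact hN1 i (a - 1)
  have hRs0 : ∀ a, 0 ≤ Rs a := by
    intro a
    simp only [hRs]
    by_cases ha : a = 0
    · rw [if_pos ha]
    · rw [if_neg ha]; exact hR2t i (a - 1)
  have hfin := Hnum ε hε0.le hε1 ε' hε' (D1.Jm i) (Jm_pos D1 i) l Ns Rs hl0 hNs0 hRs0 r hr0.le
    (hXz.trans htop) (by
      intro a ha
      rw [mem_Icc] at ha
      have haJ : a ≤ D1.Jm i := ha.2.trans (min_le_right _ _)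
      have haJ0 : a ≤ J0 := ha.2.trans (min_le_left _ _)
      have h2a : (0 : ℝ) < 2 ^ a := by positivity
      have htail := tailS_nonneg (J := D1.Jm i) hl0 a
      rcases (q_le hp hq a).eq_or_lt with he | hlt
      · left
        have h0 : l a = 0 := by simp only [hl]; rw [he]; ring
        rw [h0, zero_div, mul_zero]
        have := mul_nonneg hε0.le hr0.le
        linarith
      · obtain ⟨y, hyU, hsy, hdy, hvar, hgeo⟩ := mid_var hc hℓ hcrd hp hq ha.1 haJ hlt
        by_cases hgood : 1 / 5 * (l a / 2 ^ a) ≤ |D1.c i y - m|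
        · left
          have h1 : |D1.c i y - m| ≤ |D1.c i y - D1.c i x| + |m - D1.c i x| := by
            rw [abs_sub_comm m]
            exact abs_sub_le _ _ _
          have h2 : |D1.c i y - D1.c i x| ≤ tailS (D1.Jm i) l a - l a / 2 ^ a := hvar
          linarith
        · right
          push Not at hgood
          intro hla
          obtain ⟨j', rfl⟩ : ∃ j', a = j' + 1 := ⟨a - 1, by omega⟩
          have hla0 : 0 < l (j' + 1) := by simp only [hl]; linarith
          have hT : (2 : ℝ) ^ (j' + 1) ≤ 2 ^ J0 := pow_le_pow_right₀ (by norm_num) haJ0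
          have hεrl : 2 ^ (j' + 1) * (ε * r) ≤ 1 / 40 * l (j' + 1) := by
            have h1 : 2 ^ (j' + 1) * (ε * r) ≤ 2 ^ J0 * (c₈ / (40 * 2 ^ J0) * r) :=
              mul_le_mul hT (mul_le_mul_of_nonneg_right hε3 hr0.le) (by positivity)
                (by positivity)
            have h2 : (2 : ℝ) ^ J0 * (c₈ / (40 * 2 ^ J0) * r) = 1 / 40 * (c₈ * r) := by
              field_simp
            linarith
          have hcy : 2 ^ (j' + 1) * |D1.c i y - D1.c i x| ≤ 9 / 40 * l (j' + 1) := by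
            have h1 : |D1.c i y - D1.c i x| ≤ |D1.c i y - m| + |m - D1.c i x| :=
              abs_sub_le _ _ _
            have h2 : |D1.c i y - D1.c i x| ≤ 1 / 5 * (l (j' + 1) / 2 ^ (j' + 1)) + ε * r := by
              linarith
            have h3 := mul_le_mul_of_nonneg_left h2 h2a.le
            have h4 : (2 : ℝ) ^ (j' + 1) * (1 / 5 * (l (j' + 1) / 2 ^ (j' + 1)) + ε * r)
                = 1 / 5 * l (j' + 1) + 2 ^ (j' + 1) * (ε * r) := by
              field_simp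
            rw [h4] at h3
            linarith
          rcases Hbad hc hℓ S D1 hG1 i j' (x := x) (L := l (j' + 1)) rfl hla0 hyU hsy hdy hcy
            hgeo with h | ⟨h, h'⟩
          · left
            simp only [hNs, Nat.add_eq_zero_iff, one_ne_zero, and_false, if_false,
              Nat.add_sub_cancel]
            exact h
          · right
            simp only [hRs, Nat.add_eq_zero_iff, one_ne_zero, and_false, if_false,
              Nat.add_sub_cancel]
            rw [if_neg h]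
            exact h')
  rw [law_mass D1 i l, law_mass D1 i Ns, law_mass D1 i Rs] at hfin
  have e1 := E_single (D := D1)
    (f := fun k i => dto G ℓ D1.Uᶜ x - dto G ℓ (D1.vis k (i + 1)) x)
    (fun k i _ => R1_term_nonneg hℓ hdom1 k (i + 1) x) i
  have e2 := E_single (D := D1) (f := fun k i => S.N D1 k i x) (fun k a _ => hN1 k a) i
  have e3 := E_single (D := D1)
    (f := fun i a => if x ∈ D1.vis i (a + 1) then 0 else Sys.R1 G ℓ (S.ch D1 i a x) x)
    (fun k a _ => hR2t k a) i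
  rw [← hR2e] at e3
  have g1 : 1 / 6 * ∑ a ∈ range (D1.Jm i), D1.mass i a * l (a + 1) ≤ Sys.R1 G ℓ D1 x := e1
  have g2 : 1 / 6 * ∑ a ∈ range (D1.Jm i), D1.mass i a * Ns (a + 1) ≤ S.EN D1 x := by
    refine le_trans (le_of_eq ?_) e2
    simp only [hNs, Nat.add_eq_zero_iff, one_ne_zero, and_false, if_false, Nat.add_sub_cancel]
  have g3 : 1 / 6 * ∑ a ∈ range (D1.Jm i), D1.mass i a * Rs (a + 1) ≤ S.R2 D1 x := by
    refine le_trans (le_of_eq ?_) e3
    simp only [hRs, Nat.add_eq_zero_iff, one_ne_zero, and_false, if_false, Nat.add_sub_cancel]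
  have g2' := mul_le_mul_of_nonneg_left g2 hK2
  linarith

end Vale.Agent.P235.LL.H492
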