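import Vale.Agent.P235.Comp.PathSum

/-!
P235, planar `O(log log n)` (helper40), section (8), the graph half of LIN2 (helper492):
variation of a coordinate along a geodesic with invisible interior.
-/

namespace Vale.Agent.P235.H492

open Finset SimpleGraph

/-- `B(t) = ∑_{k ≤ J} 2^-k (t - q_k)^+ + 2^-J (t - q_J)^+`. -/
noncomputable def BB (J : ℕ) (q : ℕ → ℝ) (t : ℝ) : ℝ :=
  ∑ k ∈ Icc 1 J, max 0 (t - q k) / 2 ^ k + max 0 (t - q J) / 2 ^ J

theorem BB_mono {J : ℕ} {q : ℕ → ℝ} {t t' : ℝ} (h : t ≤ t') : BB J q t ≤ BB J q t' := by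
  unfold BB
  have h1 : ∀ k : ℕ, max 0 (t - q k) / 2 ^ k ≤ max 0 (t' - q k) / 2 ^ k := fun k =>
    div_le_div_of_nonneg_right (max_le_max le_rfl (by linarith)) (by positivity)
  exact add_le_add (Finset.sum_le_sum fun k _ => h1 k) (h1 J)

theorem BB_nonneg {J : ℕ} {q : ℕ → ℝ} {t : ℝ} : 0 ≤ BB J q t := by
  unfold BB
  have h1 : ∀ k : ℕ, 0 ≤ max 0 (t - q k) / 2 ^ k := fun k =>
    div_nonneg (le_max_left _ _) (by positivity)
  exact add_nonneg (Finset.sum_nonneg fun k _ => h1 k) (h1 J)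

/-- `∑_{k0 ≤ k ≤ J} 2^-k + 2^-J = 2 ^ (1 - k0)` -/
theorem geom_tail {J k0 : ℕ} (h1 : 1 ≤ k0) (h : k0 ≤ J) :
    ∑ k ∈ Icc k0 J, (1 : ℝ) / 2 ^ k + 1 / 2 ^ J = 1 / 2 ^ (k0 - 1) := by
  obtain ⟨d, rfl⟩ : ∃ d, J = k0 + d := ⟨J - k0, by omega⟩
  induction d with
  | zero =>
    obtain ⟨m, rfl⟩ : ∃ m, k0 = m + 1 := ⟨k0 - 1, by omega⟩
    simp only [add_zero, Icc_self, sum_singleton, Nat.add_sub_cancel]
    rw [pow_succ]; ring
  | succ d ih =>
    have ih' := ih (by omega)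
    rw [← add_assoc, Finset.sum_Icc_succ_top (by omega)]
    rw [← ih']
    rw [pow_succ (2 : ℝ) (k0 + d)]
    ring

theorem BB_step {J : ℕ} {q : ℕ → ℝ} {t t' σ : ℝ} (hJ : 1 ≤ J) (htt : t ≤ t') (hσ0 : 0 ≤ σ)
    (hσ1 : σ ≤ 1) (hσJ : 0 < σ → 1 / 2 ^ J ≤ σ)
    (hq : ∀ k, 1 ≤ k → k ≤ J → 1 / 2 ^ k ≤ σ → q k ≤ t) :
    σ * (t' - t) ≤ BB J q t' - BB J q t := by
  rcases hσ0.eq_or_lt with h0 | h0
  · rw [← h0, zero_mul, sub_nonneg]
    exact BB_mono htt
  · have hex : ∃ k, 1 ≤ k ∧ (1 : ℝ) / 2 ^ k ≤ σ := ⟨J, hJ, hσJ h0⟩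
    classical
    set k0 := Nat.find hex with hk0
    have hk1 : 1 ≤ k0 := (Nat.find_spec hex).1
    have hk2 : (1 : ℝ) / 2 ^ k0 ≤ σ := (Nat.find_spec hex).2
    have hk0J : k0 ≤ J := Nat.find_min' hex ⟨hJ, hσJ h0⟩
    have hσk : σ ≤ 1 / 2 ^ (k0 - 1) := by
      by_cases h : k0 = 1
      · rw [h]; simpa using hσ1
      · have h2 := Nat.find_min hex (m := k0 - 1) (by omega)
        push Not at h2
        exact (h2 (by omega)).le
    have hqk : ∀ k, k0 ≤ k → k ≤ J → q k ≤ t := by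
      intro k h1 h2
      refine hq k (by omega) h2 (le_trans ?_ hk2)
      exact one_div_le_one_div_of_le (by positivity)
        (pow_le_pow_right₀ (by norm_num) h1)
    have hdiff : BB J q t' - BB J q t
        = ∑ k ∈ Icc 1 J, (max 0 (t' - q k) / 2 ^ k - max 0 (t - q k) / 2 ^ k)
          + (max 0 (t' - q J) / 2 ^ J - max 0 (t - q J) / 2 ^ J) := by
      unfold BB
      rw [Finset.sum_sub_distrib]; ring
    have hterm : ∀ k, k0 ≤ k → k ≤ J →
        max 0 (t' - q k) / 2 ^ k - max 0 (t - q k) / 2 ^ k = (t' - t) * (1 / 2 ^ k) := by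
      intro k h1 h2
      have h3 := hqk k h1 h2
      rw [max_eq_right (by linarith), max_eq_right (by linarith)]
      ring
    have hterm0 : ∀ k, 0 ≤ max 0 (t' - q k) / 2 ^ k - max 0 (t - q k) / 2 ^ k := by
      intro k
      rw [sub_nonneg]
      exact div_le_div_of_nonneg_right (max_le_max le_rfl (by linarith)) (by positivity)
    have hsub : ∑ k ∈ Icc k0 J, (max 0 (t' - q k) / 2 ^ k - max 0 (t - q k) / 2 ^ k)
        ≤ ∑ k ∈ Icc 1 J, (max 0 (t' - q k) / 2 ^ k - max 0 (t - q k) / 2 ^ k) := by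
      apply Finset.sum_le_sum_of_subset_of_nonneg
      · exact Finset.Icc_subset_Icc hk1 le_rfl
      · intro k _ _; exact hterm0 k
    have heq : ∑ k ∈ Icc k0 J, (max 0 (t' - q k) / 2 ^ k - max 0 (t - q k) / 2 ^ k)
        = (t' - t) * ∑ k ∈ Icc k0 J, (1 : ℝ) / 2 ^ k := by
      rw [Finset.mul_sum]
      refine Finset.sum_congr rfl fun k hk => ?_
      rw [mem_Icc] at hk
      exact hterm k hk.1 hk.2
    have hJt := hterm J hk0J le_rfl
    have hg := geom_tail hk1 hk0J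
    rw [hdiff, hJt]
    have hfin : σ * (t' - t) ≤ (t' - t) * (∑ k ∈ Icc k0 J, (1 : ℝ) / 2 ^ k + 1 / 2 ^ J) := by
      rw [hg, mul_comm]
      exact mul_le_mul_of_nonneg_left hσk (by linarith)
    rw [mul_add] at hfin
    linarith [heq ▸ hsub]

/-- the value at `p'`: `B(p') = S_0`. -/
theorem BB_top {J : ℕ} {q : ℕ → ℝ} {t : ℝ} (hJ : 1 ≤ J) (hq : ∀ k, 1 ≤ k → k ≤ J → q k ≤ t) :
    BB J q t = ∑ k ∈ Ioc 0 J, (t - q k) / 2 ^ k + (t - q J) / 2 ^ J := by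
  unfold BB
  have h0 : Ioc 0 J = Icc 1 J := by ext i; simp only [mem_Ioc, mem_Icc]; omega
  rw [h0, max_eq_right (by linarith [hq J hJ le_rfl])]
  congr 1
  refine Finset.sum_congr rfl fun k hk => ?_
  rw [mem_Icc] at hk
  rw [max_eq_right (by linarith [hq k hk.1 hk.2])]

/-- the value at `q_j`: `B(q_j) = S_j - 2^-j l_j`, with `l_k = t - q_k`. -/
theorem BB_mid {J : ℕ} {q : ℕ → ℝ} {t : ℝ} {j : ℕ} (hj : 1 ≤ j) (hjJ : j ≤ J)
    (hanti : ∀ k k', 1 ≤ k → k ≤ k' → k' ≤ J → q k' ≤ q k) :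
    BB J q (q j) = ∑ k ∈ Ioc j J, (t - q k) / 2 ^ k + (t - q J) / 2 ^ J - (t - q j) / 2 ^ j := by
  unfold BB
  rw [max_eq_right (by linarith [hanti j J hj hjJ le_rfl])]
  have hsplit : Icc 1 J = Icc 1 j ∪ Ioc j J := by
    ext i; simp only [mem_Icc, mem_union, mem_Ioc]; omega
  have hdisj : Disjoint (Icc 1 j) (Ioc j J) := by
    rw [Finset.disjoint_left]; intro i hi hi'; simp only [mem_Icc, mem_Ioc] at *; omega
  rw [hsplit, Finset.sum_union hdisj]
  have h1 : ∑ k ∈ Icc 1 j, max 0 (q j - q k) / (2 : ℝ) ^ k = 0 := by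
    refine Finset.sum_eq_zero fun k hk => ?_
    rw [mem_Icc] at hk
    rw [max_eq_left (by linarith [hanti k j hk.1 hk.2 hjJ]), zero_div]
  have h2 : ∑ k ∈ Ioc j J, max 0 (q j - q k) / (2 : ℝ) ^ k
      = ∑ k ∈ Ioc j J, (t - q k) / 2 ^ k - (t - q j) * ∑ k ∈ Ioc j J, (1 : ℝ) / 2 ^ k := by
    rw [Finset.mul_sum, ← Finset.sum_sub_distrib]
    refine Finset.sum_congr rfl fun k hk => ?_
    rw [mem_Ioc] at hk
    rw [max_eq_right (by linarith [hanti j k hj hk.1.le hk.2])]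
    ring
  have h3 : ∑ k ∈ Ioc j J, (1 : ℝ) / 2 ^ k = 1 / 2 ^ j - 1 / 2 ^ J := by
    rcases hjJ.eq_or_lt with h | h
    · subst h; simp
    · have h4 : Ioc j J = Icc (j + 1) J := by ext i; simp only [mem_Ioc, mem_Icc]; omega
      have h5 := geom_tail (J := J) (k0 := j + 1) (by omega) h
      rw [Nat.add_sub_cancel] at h5
      rw [h4]; linarith
  rw [h1, h2, h3]
  ring

variable {V : Type} {G : SimpleGraph V} {ℓ : Sym2 V → ℝ}

/-- a prefix of a geodesic is a geodesic -/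
theorem geod_prefix [Finite V] (hc : G.Connected) (hℓ : ∀ e ∈ G.edgeSet, 0 < ℓ e) {x y z : V}
    {p : G.Walk x y} {h : G.Adj y z}
    (hp : ((p.concat h).edges.map ℓ).sum = pathDist G ℓ x z) :
    (p.edges.map ℓ).sum = pathDist G ℓ x y ∧
      pathDist G ℓ x z = pathDist G ℓ x y + ℓ s(y, z) := by
  have hd := pathDist_isMet hc hℓ
  have h1 := pathDist_le hℓ p
  have h2 := hd.tri x y z
  have h3 := pathDist_adj hℓ h
  rw [Walk.edges_concat, List.concat_eq_append, List.map_append, List.sum_append] at hp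
  simp only [List.map_cons, List.map_nil, List.sum_cons, List.sum_nil, add_zero] at hp
  constructor <;> linarith

/-- **variation along a geodesic with invisible interior** -/
theorem var_geod [Finite V] (hc : G.Connected) (hℓ : ∀ e ∈ G.edgeSet, 0 < ℓ e)
    {U : Set V} {c s : V → ℝ} {J : ℕ} (hJ : 1 ≤ J) {q : ℕ → ℝ} {x : V}
    (hs0 : ∀ v ∈ U, 0 ≤ s v) (hs1 : ∀ v ∈ U, s v ≤ 1) (hsJ : ∀ v ∈ U, 0 < s v → 1 / 2 ^ J ≤ s v)
    (hedge : ∀ u ∈ U, ∀ v ∈ U, G.Adj u v → |c u - c v| ≤ s u * ℓ s(u, v))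
    (hq : ∀ k, 1 ≤ k → k ≤ J → ∀ v ∈ U, 1 / 2 ^ k ≤ s v → q k ≤ pathDist G ℓ x v)
    {y : V} (p : G.Walk x y) (hp : (p.edges.map ℓ).sum = pathDist G ℓ x y)
    (hU : ∀ v ∈ p.support, v ∈ U) :
    |c y - c x| ≤ BB J q (pathDist G ℓ x y) := by
  induction p using Walk.concatRec with
  | Hnil => simpa using BB_nonneg
  | @Hconcat u v w p h ih =>
    obtain ⟨hp1, hp2⟩ := geod_prefix hc hℓ hp
    have hv : v ∈ U := hU v (by rw [Walk.support_concat]; simp)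
    have hw : w ∈ U := hU w (by rw [Walk.support_concat]; simp)
    have ih' := ih hq hp1 (fun a ha => hU a (by rw [Walk.support_concat]; simp [ha]))
    have h1 := BB_step (q := q) hJ (t := pathDist G ℓ u v) (t' := pathDist G ℓ u w)
      (by have := hℓ _ (G.mem_edgeSet.mpr h); linarith) (hs0 v hv) (hs1 v hv) (hsJ v hv)
      (fun k h1 h2 h3 => hq k h1 h2 v hv h3)
    have h2 := hedge v hv w hw h
    have h3 : pathDist G ℓ u w - pathDist G ℓ u v = ℓ s(v, w) := by linarith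
    rw [h3] at h1
    have h4 : |c w - c u| ≤ |c v - c w| + |c v - c u| := by
      rw [abs_sub_comm (c v) (c w)]
      exact abs_sub_le _ _ _
    linarith

/-- the same with a last dart `(v, b)`, `b ∉ U`, of value `cb` -/
theorem var_dart [Finite V] (hc : G.Connected) (hℓ : ∀ e ∈ G.edgeSet, 0 < ℓ e)
    {U : Set V} {c s : V → ℝ} {J : ℕ} (hJ : 1 ≤ J) {q : ℕ → ℝ} {x : V}
    (hs0 : ∀ v ∈ U, 0 ≤ s v) (hs1 : ∀ v ∈ U, s v ≤ 1) (hsJ : ∀ v ∈ U, 0 < s v → 1 / 2 ^ J ≤ s v)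
    (hedge : ∀ u ∈ U, ∀ v ∈ U, G.Adj u v → |c u - c v| ≤ s u * ℓ s(u, v))
    (hq : ∀ k, 1 ≤ k → k ≤ J → ∀ v ∈ U, 1 / 2 ^ k ≤ s v → q k ≤ pathDist G ℓ x v)
    {v b : V} (p : G.Walk x v) (h : G.Adj v b)
    (hp : ((p.concat h).edges.map ℓ).sum = pathDist G ℓ x b)
    (hU : ∀ u ∈ p.support, u ∈ U) {cb : ℝ} (hcb : |c v - cb| ≤ s v * ℓ s(v, b)) :
    |cb - c x| ≤ BB J q (pathDist G ℓ x b) := by
  obtain ⟨hp1, hp2⟩ := geod_prefix hc hℓ hp
  have hv : v ∈ U := hU v p.end_mem_support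
  have ih' := var_geod hc hℓ hJ hs0 hs1 hsJ hedge hq p hp1 hU
  have h1 := BB_step (q := q) hJ (t := pathDist G ℓ x v) (t' := pathDist G ℓ x b)
    (by have := hℓ _ (G.mem_edgeSet.mpr h); linarith) (hs0 v hv) (hs1 v hv) (hsJ v hv)
    (fun k h1 h2 h3 => hq k h1 h2 v hv h3)
  have h3 : pathDist G ℓ x b - pathDist G ℓ x v = ℓ s(v, b) := by linarith
  rw [h3] at h1
  have h4 : |cb - c x| ≤ |c v - cb| + |c v - c x| := by
    rw [abs_sub_comm (c v) cb]
    exact abs_sub_le _ _ _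
  linarith

/-- a geodesic to a nearest point of `A` meets `A` only at its end. -/
theorem geod_nearest [Finite V] (hc : G.Connected) (hℓ : ∀ e ∈ G.edgeSet, 0 < ℓ e) {A : Set V}
    {x y : V} (hxA : x ∉ A) (hyA : y ∈ A) (hmin : ∀ a ∈ A, pathDist G ℓ x y ≤ pathDist G ℓ x a) :
    ∃ (v : V) (p : G.Walk x v) (h : G.Adj v y),
      ((p.concat h).edges.map ℓ).sum = pathDist G ℓ x y ∧ ∀ u ∈ p.support, u ∉ A := by
  have key : ∀ {x' w : V} (p : G.Walk x' w), x' = x → (p.edges.map ℓ).sum = pathDist G ℓ x w →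
      pathDist G ℓ x w < pathDist G ℓ x y → ∀ u ∈ p.support, u ∉ A := by
    intro x' w p
    induction p using Walk.concatRec with
    | Hnil =>
      intro h1 _ _ u hu
      rw [Walk.support_nil, List.mem_singleton] at hu
      rw [hu, h1]; exact hxA
    | @Hconcat a v w p h ih =>
      intro h1 h2 h3 u hu
      subst h1
      obtain ⟨hp1, hp2⟩ := geod_prefix hc hℓ h2
      have hpos := hℓ _ (G.mem_edgeSet.mpr h)
      rw [Walk.support_concat] at hu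
      simp only [List.concat_eq_append, List.mem_append, List.mem_singleton] at hu
      rcases hu with hu | hu
      · exact ih rfl hp1 (by linarith) u hu
      · rw [hu]; intro hA
        exact absurd (hmin w hA) (by linarith)
  obtain ⟨P, hP⟩ := exists_geodesic hc hℓ x y
  have hne : x ≠ y := fun h => hxA (h ▸ hyA)
  obtain ⟨v, p, h, hPc⟩ : ∃ (v : V) (p : G.Walk x v) (h : G.Adj v y), P = p.concat h := by
    cases P with
    | nil => exact absurd rfl hne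
    | cons h0 p0 =>
      obtain ⟨v, p, h, e⟩ := Walk.exists_cons_eq_concat h0 p0
      exact ⟨v, p, h, e⟩
  refine ⟨v, p, h, by rw [← hPc]; exact hP, ?_⟩
  rw [hPc] at hP
  obtain ⟨hp1, hp2⟩ := geod_prefix hc hℓ hP
  exact key p rfl hp1 (by have := hℓ _ (G.mem_edgeSet.mpr h); linarith)

end Vale.Agent.P235.H492
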